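import Vale.Agent.P235.H56.Defs

/-!
# A new vertex on a non-separating triangle (helper218)

`G` without `K_5` minor and without `K_{3,3}` minor, `S` a clique with at most three vertices,
`G - S` connected if `|S| = 3`. Then `G` with a new vertex joined to `S` has no `K_{3,3}` minor.
-/

namespace Vale.Agent.P235.H218K5

open SimpleGraph Vale.Agent.P235.H134
open Vale.Agent.P235.H341W (capG)
open Vale.Agent.P235.H56 (K33)

/-- connected, in terms of cuts -/
def Con {V : Type} (G : SimpleGraph V) (X : Set V) : Prop :=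
  X.Nonempty ∧ ∀ C : Set V, C ⊆ X → C.Nonempty → C ≠ X → ∃ x ∈ C, ∃ y ∈ X, y ∉ C ∧ G.Adj x y

/-- some edge between `X` and `Y` -/
def Tch {V : Type} (G : SimpleGraph V) (X Y : Set V) : Prop := ∃ x ∈ X, ∃ y ∈ Y, G.Adj x y

theorem Tch.symm {V : Type} {G : SimpleGraph V} {X Y : Set V} (h : Tch G X Y) : Tch G Y X := by
  obtain ⟨x, hx, y, hy, h⟩ := h
  exact ⟨y, hy, x, hx, h.symm⟩

theorem Tch.mono {V : Type} {G : SimpleGraph V} {X Y X' Y' : Set V} (h : Tch G X Y) (hX : X ⊆ X')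
    (hY : Y ⊆ Y') : Tch G X' Y' := by
  obtain ⟨x, hx, y, hy, h⟩ := h
  exact ⟨x, hX hx, y, hY hy, h⟩

theorem con_iff {V : Type} {G : SimpleGraph V} {X : Set V} :
    (G.induce X).Connected ↔ Con G X := by
  constructor
  · intro h
    refine ⟨?_, ?_⟩
    · obtain ⟨x⟩ := h.nonempty
      exact ⟨x.1, x.2⟩
    · intro C hC hne hneq
      obtain ⟨c, hc⟩ := hne
      obtain ⟨y, hy, hyC⟩ : ∃ y ∈ X, y ∉ C := by
        by_contra hh
        push Not at hh
        exact hneq (Set.Subset.antisymm hC hh)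
      obtain ⟨p⟩ := h.preconnected ⟨c, hC hc⟩ ⟨y, hy⟩
      obtain ⟨d, -, hd1, hd2⟩ := p.exists_boundary_dart {x | x.1 ∈ C} hc hyC
      exact ⟨d.fst.1, hd1, d.snd.1, d.snd.2, hd2, d.adj⟩
  · rintro ⟨⟨x0, hx0⟩, h⟩
    have : Nonempty X := ⟨⟨x0, hx0⟩⟩
    refine ⟨fun u v => ?_⟩
    by_contra hr
    obtain ⟨x, hx, y, hy, hyC, hxy⟩ := h {x | ∃ hx : x ∈ X, (G.induce X).Reachable u ⟨x, hx⟩}
      (fun x hx => hx.1) ⟨u.1, u.2, SimpleGraph.Reachable.refl u⟩ (by
        intro e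
        have : v.1 ∈ {x | ∃ hx : x ∈ X, (G.induce X).Reachable u ⟨x, hx⟩} := by
          rw [e]; exact v.2
        exact hr this.2)
    obtain ⟨hxX, hxr⟩ := hx
    refine hyC ⟨hy, hxr.trans (SimpleGraph.Adj.reachable ?_)⟩
    exact hxy

theorem Con.union {V : Type} {G : SimpleGraph V} {X Y : Set V} (hX : Con G X) (hY : Con G Y)
    (h : Tch G X Y) : Con G (X ∪ Y) := by
  refine ⟨hX.1.mono Set.subset_union_left, ?_⟩
  intro C hC hne hneq
  by_cases h1 : (C ∩ X).Nonempty ∧ C ∩ X ≠ X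
  · obtain ⟨x, hx, y, hy, hyC, hxy⟩ := hX.2 (C ∩ X) Set.inter_subset_right h1.1 h1.2
    exact ⟨x, hx.1, y, Or.inl hy, fun hh => hyC ⟨hh, hy⟩, hxy⟩
  by_cases h2 : (C ∩ Y).Nonempty ∧ C ∩ Y ≠ Y
  · obtain ⟨x, hx, y, hy, hyC, hxy⟩ := hY.2 (C ∩ Y) Set.inter_subset_right h2.1 h2.2
    exact ⟨x, hx.1, y, Or.inr hy, fun hh => hyC ⟨hh, hy⟩, hxy⟩
  have d1 : (C ∩ X = ∅) ∨ X ⊆ C := by
    by_cases hh : (C ∩ X).Nonempty
    · right
      by_contra hc
      exact h1 ⟨hh, fun e => hc (fun x hx => by rw [← e] at hx; exact hx.1)⟩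
    · left; exact Set.not_nonempty_iff_eq_empty.1 hh
  have d2 : (C ∩ Y = ∅) ∨ Y ⊆ C := by
    by_cases hh : (C ∩ Y).Nonempty
    · right
      by_contra hc
      exact h2 ⟨hh, fun e => hc (fun x hx => by rw [← e] at hx; exact hx.1)⟩
    · left; exact Set.not_nonempty_iff_eq_empty.1 hh
  obtain ⟨x, hx, y, hy, hxy⟩ := h
  rcases d1 with d1 | d1 <;> rcases d2 with d2 | d2
  · exfalso
    obtain ⟨c, hc⟩ := hne
    rcases hC hc with hh | hh
    · have : c ∈ C ∩ X := ⟨hc, hh⟩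
      rw [d1] at this; exact this
    · have : c ∈ C ∩ Y := ⟨hc, hh⟩
      rw [d2] at this; exact this
  · refine ⟨y, d2 hy, x, Or.inl hx, fun hh => ?_, hxy.symm⟩
    have : x ∈ C ∩ X := ⟨hh, hx⟩
    rw [d1] at this; exact this
  · refine ⟨x, d1 hx, y, Or.inr hy, fun hh => ?_, hxy⟩
    have : y ∈ C ∩ Y := ⟨hh, hy⟩
    rw [d2] at this; exact this
  · exfalso
    exact hneq (Set.Subset.antisymm hC (Set.union_subset d1 d2))

theorem con_singleton {V : Type} (G : SimpleGraph V) (v : V) : Con G {v} := by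
  refine ⟨⟨v, rfl⟩, ?_⟩
  intro C hC hne hneq
  exfalso
  obtain ⟨c, hc⟩ := hne
  have := hC hc
  rw [Set.mem_singleton_iff] at this
  subst this
  exact hneq (Set.Subset.antisymm hC (by intro x hx; rw [Set.mem_singleton_iff] at hx; rw [hx]; exact hc))

/-- the branch of `X - a` at `v` -/
theorem branch {V : Type} [Finite V] {G : SimpleGraph V} {X : Set V} (hX : Con G X) {a v : V}
    (ha : a ∈ X) (hv : v ∈ X) (hva : v ≠ a) :
    ∃ D : Set V, D ⊆ X ∧ v ∈ D ∧ a ∉ D ∧ Con G D ∧ Con G (X \ D) ∧ Tch G (X \ D) D := by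
  classical
  have hfin : {D : Set V | D ⊆ X ∧ v ∈ D ∧ a ∉ D ∧ Con G D}.Finite := Set.toFinite _
  obtain ⟨D, hD⟩ := hfin.exists_maximal ⟨{v}, by
    rintro x rfl; exact hv, rfl, fun h => hva h.symm, con_singleton G v⟩
  obtain ⟨⟨hDX, hvD, haD, hDc⟩, hmax⟩ := hD
  have hno : ∀ x ∈ D, ∀ y ∈ X, y ∉ D → G.Adj x y → y = a := by
    intro x hx y hy hyD hxy
    by_contra hya
    have h1 : Con G (D ∪ {y}) := hDc.union (con_singleton G y) ⟨x, hx, y, rfl, hxy⟩
    have h2 : (D ∪ {y}) ∈ {D : Set V | D ⊆ X ∧ v ∈ D ∧ a ∉ D ∧ Con G D} := by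
      refine ⟨Set.union_subset hDX (by rintro z rfl; exact hy), Or.inl hvD, ?_, h1⟩
      rintro (h | h)
      · exact haD h
      · exact hya h.symm
    have h3 := hmax h2 Set.subset_union_left
    exact hyD (h3 (Or.inr rfl))
  obtain ⟨x, hx, y, hy, hyD, hxy⟩ := hX.2 D hDX ⟨v, hvD⟩ (fun e => haD (e ▸ ha))
  have hya := hno x hx y hy hyD hxy
  subst hya
  refine ⟨D, hDX, hvD, haD, hDc, ⟨⟨y, ha, haD⟩, ?_⟩, ⟨y, ⟨ha, haD⟩, x, hx, hxy.symm⟩⟩
  have key : ∀ C : Set V, C ⊆ X \ D → C.Nonempty → y ∉ C → ∃ u ∈ C, ∃ w ∈ X \ D, w ∉ C ∧ G.Adj u w := by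
    intro C hC hne hyC
    obtain ⟨u, hu, w, hw, hwC, huw⟩ := hX.2 C (fun z hz => (hC hz).1) hne (fun e => hyC (e ▸ ha))
    refine ⟨u, hu, w, ⟨hw, fun hwD => ?_⟩, hwC, huw⟩
    have := hno w hwD u (hC hu).1 (hC hu).2 huw.symm
    exact hyC (this ▸ hu)
  intro C hC hne hneq
  by_cases hyC : y ∈ C
  · have hne' : ((X \ D) \ C).Nonempty := by
      rw [Set.nonempty_iff_ne_empty]
      intro e
      exact hneq (Set.Subset.antisymm hC (Set.sdiff_eq_empty.1 e))
    obtain ⟨u, hu, w, hw, hwC, huw⟩ := key ((X \ D) \ C) Set.sdiff_subset hne' (fun h => h.2 hyC)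
    have hwC' : w ∈ C := by
      by_contra hh
      exact hwC ⟨hw, hh⟩
    exact ⟨w, hwC', u, hu.1, hu.2, huw.symm⟩
  · exact key C hC hne hyC

/-- the configuration -/
structure Five {V : Type} (G : SimpleGraph V) (a : Fin 3 → V) (P Q : Set V)
    (B : Fin 3 → Set V) : Prop where
  cP : Con G P
  cQ : Con G Q
  cB : ∀ i, Con G (B i)
  dPQ : Disjoint P Q
  dPB : ∀ i, Disjoint P (B i)
  dQB : ∀ i, Disjoint Q (B i)
  dB : ∀ i j, i ≠ j → Disjoint (B i) (B j)
  mem : ∀ i, a i ∈ B i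
  tP : ∀ i, Tch G P (B i)
  tQ : ∀ i, Tch G Q (B i)

theorem Five.swap {V : Type} {G : SimpleGraph V} {a : Fin 3 → V} {P Q : Set V}
    {B : Fin 3 → Set V} (h : Five G a P Q B) : Five G a Q P B :=
  ⟨h.cQ, h.cP, h.cB, h.dPQ.symm, h.dQB, h.dPB, h.dB, h.mem, h.tQ, h.tP⟩

/-- a branch `D` of `B i` goes to `P` -/
theorem Five.move {V : Type} {G : SimpleGraph V} {a : Fin 3 → V} {P Q : Set V}
    {B : Fin 3 → Set V} (h : Five G a P Q B) (i : Fin 3) {D : Set V} (hD : D ⊆ B i)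
    (ha : a i ∉ D) (hDc : Con G D) (hEc : Con G (B i \ D)) (hED : Tch G (B i \ D) D)
    (hPD : Tch G P D) (hQE : Tch G Q (B i \ D)) :
    Five G a (P ∪ D) Q (Function.update B i (B i \ D)) := by
  have hsub : ∀ j, Function.update B i (B i \ D) j ⊆ B j := by
    intro j
    by_cases hj : j = i
    · subst hj; simp
    · simp [Function.update_of_ne hj]
  refine ⟨h.cP.union hDc hPD, h.cQ, ?_, ?_, ?_, ?_, ?_, ?_, ?_, ?_⟩
  · intro j
    by_cases hj : j = i
    · subst hj; simpa using hEc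
    · simpa [Function.update_of_ne hj] using h.cB j
  · exact Set.disjoint_union_left.2 ⟨h.dPQ, ((h.dQB i).mono_right hD).symm⟩
  · intro j
    refine Set.disjoint_union_left.2 ⟨(h.dPB j).mono_right (hsub j), ?_⟩
    by_cases hj : j = i
    · subst hj; simpa using Set.disjoint_sdiff_right
    · rw [Function.update_of_ne hj]
      exact ((h.dB i j (fun e => hj e.symm))).mono_left hD
  · intro j
    exact (h.dQB j).mono_right (hsub j)
  · intro j k hjk
    exact ((h.dB j k hjk).mono_right (hsub k)).mono_left (hsub j)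
  · intro j
    by_cases hj : j = i
    · subst hj; simpa using ⟨h.mem j, ha⟩
    · simpa [Function.update_of_ne hj] using h.mem j
  · intro j
    by_cases hj : j = i
    · subst hj
      simpa using (hED.symm.mono (Set.subset_union_right (s := P)) (le_refl _))
    · rw [Function.update_of_ne hj]
      exact (h.tP j).mono Set.subset_union_left (le_refl _)
  · intro j
    by_cases hj : j = i
    · subst hj; simpa using hQE
    · rw [Function.update_of_ne hj]
      exact h.tQ j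

/-- a free vertex goes to `P` -/
theorem Five.add {V : Type} {G : SimpleGraph V} {a : Fin 3 → V} {P Q : Set V}
    {B : Fin 3 → Set V} (h : Five G a P Q B) {x v : V} (hx : x ∈ P) (hxv : G.Adj x v)
    (hvQ : v ∉ Q) (hvB : ∀ i, v ∉ B i) : Five G a (P ∪ {v}) Q B := by
  refine ⟨h.cP.union (con_singleton G v) ⟨x, hx, v, rfl, hxv⟩, h.cQ, h.cB, ?_, ?_, h.dQB, h.dB,
    h.mem, ?_, h.tQ⟩
  · exact Set.disjoint_union_left.2 ⟨h.dPQ, Set.disjoint_singleton_left.2 hvQ⟩
  · intro i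
    exact Set.disjoint_union_left.2 ⟨h.dPB i, Set.disjoint_singleton_left.2 (hvB i)⟩
  · intro i
    exact (h.tP i).mono Set.subset_union_left (le_refl _)

theorem Five.k5 {V : Type} {G : SimpleGraph V} {a : Fin 3 → V} {P Q : Set V}
    {B : Fin 3 → Set V} (h : Five G a P Q B) (hadj : ∀ i j, i ≠ j → G.Adj (a i) (a j))
    (hPQ : Tch G P Q) : IsMinor (⊤ : SimpleGraph (Fin 5)) G := by
  have hB : ∀ i j, i ≠ j → Tch G (B i) (B j) := fun i j hij =>
    ⟨a i, h.mem i, a j, h.mem j, hadj i j hij⟩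
  refine ⟨![P, Q, B 0, B 1, B 2], ?_, ?_, ?_⟩
  · intro i
    rw [con_iff]
    fin_cases i
    · exact h.cP
    · exact h.cQ
    · exact h.cB 0
    · exact h.cB 1
    · exact h.cB 2
  · intro i j hij
    fin_cases i <;> fin_cases j <;> first
      | exact absurd rfl hij
      | exact h.dPQ
      | exact h.dPQ.symm
      | exact h.dPB _
      | exact (h.dPB _).symm
      | exact h.dQB _
      | exact (h.dQB _).symm
      | exact h.dB _ _ (by decide)
  · intro i j hij
    rw [SimpleGraph.top_adj] at hij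
    fin_cases i <;> fin_cases j <;> first
      | exact absurd rfl hij
      | exact hPQ
      | exact hPQ.symm
      | exact h.tP _
      | exact (h.tP _).symm
      | exact h.tQ _
      | exact (h.tQ _).symm
      | exact hB _ _ (by decide)

/-- two families of three sets -/
theorem k33_of {V : Type} {G : SimpleGraph V} (A B : Fin 3 → Set V) (cA : ∀ i, Con G (A i))
    (cB : ∀ i, Con G (B i)) (dA : ∀ i j, i ≠ j → Disjoint (A i) (A j))
    (dB : ∀ i j, i ≠ j → Disjoint (B i) (B j)) (dAB : ∀ i j, Disjoint (A i) (B j))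
    (t : ∀ i j, Tch G (A i) (B j)) : IsMinor K33 G := by
  refine ⟨Sum.elim A B, ?_, ?_, ?_⟩
  · rintro (i | i)
    · exact con_iff.2 (cA i)
    · exact con_iff.2 (cB i)
  · rintro (i | i) (j | j) hij
    · exact dA i j (fun e => hij (by rw [e]))
    · exact dAB i j
    · exact (dAB j i).symm
    · exact dB i j (fun e => hij (by rw [e]))
  · rintro (i | i) (j | j) hij
    · exact absurd hij (by simp [K33])
    · exact t i j
    · exact (t j i).symm
    · exact absurd hij (by simp [K33])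

theorem Five.k33 {V : Type} {G : SimpleGraph V} {a : Fin 3 → V} {P Q : Set V}
    {B : Fin 3 → Set V} (h : Five G a P Q B) (hadj : ∀ i j, i ≠ j → G.Adj (a i) (a j))
    (i : Fin 3) {D : Set V} (hD : D ⊆ B i)
    (ha : a i ∉ D) (hDc : Con G D) (hEc : Con G (B i \ D)) (hED : Tch G (B i \ D) D)
    (hPD : Tch G P D) (hQD : Tch G Q D) : IsMinor K33 G := by
  have hsub : ∀ j, Function.update B i D j ⊆ B j := by
    intro j
    by_cases hj : j = i
    · subst hj; simpa using hD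
    · simp [Function.update_of_ne hj]
  have hPE : Disjoint P (B i \ D) := (h.dPB i).mono_right Set.sdiff_subset
  have hQE : Disjoint Q (B i \ D) := (h.dQB i).mono_right Set.sdiff_subset
  have hE : ∀ j, Disjoint (B i \ D) (Function.update B i D j) := by
    intro j
    by_cases hj : j = i
    · subst hj; simpa using Set.disjoint_sdiff_left
    · rw [Function.update_of_ne hj]
      exact (h.dB i j (fun e => hj e.symm)).mono_left Set.sdiff_subset
  refine k33_of ![P, Q, B i \ D] (Function.update B i D) ?_ ?_ ?_ ?_ ?_ ?_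
  · intro j
    fin_cases j
    · exact h.cP
    · exact h.cQ
    · exact hEc
  · intro j
    by_cases hj : j = i
    · subst hj; simpa using hDc
    · simpa [Function.update_of_ne hj] using h.cB j
  · intro j k hjk
    fin_cases j <;> fin_cases k <;> first
      | exact absurd rfl hjk
      | exact h.dPQ
      | exact h.dPQ.symm
      | exact hPE
      | exact hPE.symm
      | exact hQE
      | exact hQE.symm
  · intro j k hjk
    exact ((h.dB j k hjk).mono_right (hsub k)).mono_left (hsub j)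
  · intro j k
    fin_cases j
    · exact (h.dPB k).mono_right (hsub k)
    · exact (h.dQB k).mono_right (hsub k)
    · exact hE k
  · intro j k
    by_cases hk : k = i
    · subst hk
      fin_cases j
      · simpa using hPD
      · simpa using hQD
      · simpa using hED
    · rw [Function.update_of_ne hk]
      fin_cases j
      · exact h.tP k
      · exact h.tQ k
      · exact ⟨a i, ⟨h.mem i, ha⟩, a k, h.mem k, hadj i k (fun e => hk e.symm)⟩

/-- the extremal argument -/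
theorem Five.minor {V : Type} [Finite V] {G : SimpleGraph V} {a : Fin 3 → V}
    (hadj : ∀ i j, i ≠ j → G.Adj (a i) (a j))
    (hS : ∀ C : Set V, C.Nonempty → (∀ i, a i ∉ C) →
      (∀ u ∈ C, ∀ v, G.Adj u v → v ∈ C ∨ ∃ i, v = a i) → ∀ y, y ∈ C ∨ ∃ i, y = a i) :
    ∀ (n : ℕ) (P Q : Set V) (B : Fin 3 → Set V), Five G a P Q B → ((P ∪ Q)ᶜ).ncard ≤ n →
      IsMinor (⊤ : SimpleGraph (Fin 5)) G ∨ IsMinor K33 G := by
  intro n
  induction n with
  | zero =>
    intro P Q B h hn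
    exfalso
    have : (P ∪ Q)ᶜ = ∅ := by
      rw [← Set.ncard_eq_zero (Set.toFinite _)]; omega
    have h0 : a 0 ∈ (P ∪ Q)ᶜ := by
      rintro (hh | hh)
      · exact Set.disjoint_left.1 (h.dPB 0) hh (h.mem 0)
      · exact Set.disjoint_left.1 (h.dQB 0) hh (h.mem 0)
    rw [this] at h0
    exact h0
  | succ n ih =>
    intro P Q B h hn
    have haP : ∀ i, a i ∉ P := fun i hh => Set.disjoint_left.1 (h.dPB i) hh (h.mem i)
    obtain ⟨x, hx, v, hxv, hvP, hva⟩ : ∃ x ∈ P, ∃ v, G.Adj x v ∧ v ∉ P ∧ ∀ i, v ≠ a i := by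
      by_contra hcon
      push Not at hcon
      obtain ⟨q, hq⟩ := h.cQ.1
      rcases hS P h.cP.1 haP (fun u hu v huv => by
        by_cases hv : v ∈ P
        · exact Or.inl hv
        · exact Or.inr (hcon u hu v huv hv)) q with hh | ⟨i, hh⟩
      · exact Set.disjoint_left.1 h.dPQ hh hq
      · exact Set.disjoint_left.1 (h.dQB i) hq (hh ▸ h.mem i)
    by_cases hvQ : v ∈ Q
    · exact Or.inl (h.k5 hadj ⟨x, hx, v, hvQ, hxv⟩)
    have small : ∀ W : Set V, (P ∪ Q) ⊆ W → v ∈ W → (Wᶜ).ncard ≤ n := by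
      intro W hW hvW
      have : (Wᶜ).ncard < ((P ∪ Q)ᶜ).ncard := by
        refine Set.ncard_lt_ncard ⟨Set.compl_subset_compl.2 hW, ?_⟩ (Set.toFinite _)
        intro hh
        have : v ∈ (P ∪ Q)ᶜ := by rintro (h1 | h1); exacts [hvP h1, hvQ h1]
        exact hh this hvW
      omega
    by_cases hvB : ∃ i, v ∈ B i
    · obtain ⟨i, hvi⟩ := hvB
      obtain ⟨D, hDB, hvD, haD, hDc, hEc, hED⟩ := branch (h.cB i) (h.mem i) hvi (hva i)
      have hPD : Tch G P D := ⟨x, hx, v, hvD, hxv⟩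
      by_cases h1 : Tch G Q (B i \ D)
      · refine ih (P ∪ D) Q _ (h.move i hDB haD hDc hEc hED hPD h1) (small _ ?_ ?_)
        · exact Set.union_subset (fun z hz => Or.inl (Or.inl hz)) (fun z hz => Or.inr hz)
        · exact Or.inl (Or.inr hvD)
      · have hQD : Tch G Q D := by
          obtain ⟨q, hq, y, hy, hqy⟩ := h.tQ i
          by_cases hyD : y ∈ D
          · exact ⟨q, hq, y, hyD, hqy⟩
          · exact absurd ⟨q, hq, y, ⟨hy, hyD⟩, hqy⟩ h1
        by_cases h2 : Tch G P (B i \ D)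
        · refine ih (Q ∪ D) P _ (h.swap.move i hDB haD hDc hEc hED hQD h2) (small _ ?_ ?_)
          · exact Set.union_subset (fun z hz => Or.inr hz) (fun z hz => Or.inl (Or.inl hz))
          · exact Or.inl (Or.inr hvD)
        · exact Or.inr (h.k33 hadj i hDB haD hDc hEc hED hPD hQD)
    · push Not at hvB
      refine ih (P ∪ {v}) Q B (h.add hx hxv hvQ hvB) (small _ ?_ ?_)
      · exact Set.union_subset (fun z hz => Or.inl (Or.inl hz)) (fun z hz => Or.inr hz)
      · exact Or.inl (Or.inr rfl)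

/-- trace of a set of `Option V` -/
def tr {V : Type} (M : Set (Option V)) : Set V := {x | some x ∈ M}

theorem con_tr {V : Type} {G : SimpleGraph V} {S : Set V}
    (hS : ∀ x ∈ S, ∀ y ∈ S, x ≠ y → G.Adj x y) {M : Set (Option V)} (hM : Con (capG G S) M)
    (h : none ∉ M ∨ (tr M ∩ S).Nonempty) : Con G (tr M) := by
  have hne : (tr M).Nonempty := by
    rcases h with h | ⟨x, hx, -⟩
    · obtain ⟨m, hm⟩ := hM.1
      cases m with
      | none => exact absurd hm h
      | some x => exact ⟨x, hm⟩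
    · exact ⟨x, hx⟩
  have key : ∀ C : Set V, C ⊆ tr M → C.Nonempty → (∃ y ∈ tr M, y ∉ C) →
      (none ∈ M → ∀ x ∈ C, x ∉ S) → ∃ x ∈ C, ∃ y ∈ tr M, y ∉ C ∧ G.Adj x y := by
    intro C hC hne hy0 hCS
    obtain ⟨y0, hy0, hy0C⟩ := hy0
    obtain ⟨x, hx, y, hy, hyC, hxy⟩ := hM.2 (some '' C)
      (by rintro _ ⟨z, hz, rfl⟩; exact hC hz) (hne.image _) (by
        intro e
        have : some y0 ∈ some '' C := by rw [e]; exact hy0
        obtain ⟨z, hz, hzy⟩ := this
        exact hy0C (Option.some.inj hzy ▸ hz))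
    obtain ⟨x', hx', rfl⟩ := hx
    cases y with
    | none => exact absurd hxy (hCS hy x' hx')
    | some y' => exact ⟨x', hx', y', hy, fun hh => hyC ⟨y', hh, rfl⟩, hxy⟩
  refine ⟨hne, fun C hC hCne hneq => ?_⟩
  obtain ⟨y0, hy0, hy0C⟩ : ∃ y ∈ tr M, y ∉ C := by
    by_contra hh
    push Not at hh
    exact hneq (Set.Subset.antisymm hC hh)
  by_cases hn : none ∈ M
  · by_cases h1 : ∃ x ∈ C, x ∈ S
    · by_cases h2 : ∃ y ∈ tr M, y ∉ C ∧ y ∈ S
      · obtain ⟨x, hx, hxS⟩ := h1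
        obtain ⟨y, hy, hyC, hyS⟩ := h2
        exact ⟨x, hx, y, hy, hyC, hS x hxS y hyS (fun e => hyC (e ▸ hx))⟩
      · obtain ⟨u, hu, w, hw, hwC, huw⟩ := key (tr M \ C) (fun z hz => hz.1) ⟨y0, hy0, hy0C⟩ (by
          obtain ⟨x, hx, _⟩ := h1
          exact ⟨x, hC hx, fun h => h.2 hx⟩) (fun _ z hz hzS => h2 ⟨z, hz.1, hz.2, hzS⟩)
        have : w ∈ C := by
          by_contra hh
          exact hwC ⟨hw, hh⟩
        exact ⟨w, this, u, hu.1, hu.2, huw.symm⟩
    · exact key C hC hCne ⟨y0, hy0, hy0C⟩ (fun _ x hx hxS => h1 ⟨x, hx, hxS⟩)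
  · exact key C hC hCne ⟨y0, hy0, hy0C⟩ (fun h => absurd h hn)

theorem tch_tr {V : Type} {G : SimpleGraph V} {S : Set V}
    (hS : ∀ x ∈ S, ∀ y ∈ S, x ≠ y → G.Adj x y) {M N : Set (Option V)} (hMN : Disjoint M N)
    (h : Tch (capG G S) M N) (hM : none ∉ M ∨ (tr M ∩ S).Nonempty)
    (hN : none ∉ N ∨ (tr N ∩ S).Nonempty) : Tch G (tr M) (tr N) := by
  obtain ⟨x, hx, y, hy, hxy⟩ := h
  cases x with
  | none =>
    cases y with
    | none => exact absurd hxy id
    | some y =>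
      obtain ⟨s, hs, hsS⟩ := hM.resolve_left (fun h => h hx)
      refine ⟨s, hs, y, hy, hS s hsS y hxy ?_⟩
      rintro rfl
      exact Set.disjoint_left.1 hMN hs hy
  | some x =>
    cases y with
    | none =>
      obtain ⟨s, hs, hsS⟩ := hN.resolve_left (fun h => h hy)
      refine ⟨x, hx, s, hs, hS x hxy s hsS ?_⟩
      rintro rfl
      exact Set.disjoint_left.1 hMN hx hs
    | some y => exact ⟨x, hx, y, hy, hxy⟩

theorem dis_tr {V : Type} {M N : Set (Option V)} (h : Disjoint M N) : Disjoint (tr M) (tr N) :=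
  Set.disjoint_left.2 fun _ hx hy => Set.disjoint_left.1 h hx hy

/-- a branch set which contains the new vertex and misses `S` is the new vertex -/
theorem eq_none {V : Type} {G : SimpleGraph V} {S : Set V} {M : Set (Option V)}
    (hM : Con (capG G S) M) (h1 : none ∈ M) (h2 : ¬ (tr M ∩ S).Nonempty) :
    M = {none} := by
  by_contra hne
  obtain ⟨x, hx, y, hy, hyC, hxy⟩ := hM.2 {none} (by rintro _ rfl; exact h1) ⟨none, rfl⟩
    (fun e => hne e.symm)
  rw [Set.mem_singleton_iff] at hx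
  subst hx
  cases y with
  | none => exact hyC rfl
  | some y => exact h2 ⟨y, hy, hxy⟩

theorem hit {V : Type} {G : SimpleGraph V} {S : Set V} {M N : Set (Option V)}
    (hM : Con (capG G S) M) (h1 : none ∈ M) (h2 : ¬ (tr M ∩ S).Nonempty)
    (t : Tch (capG G S) M N) : ∃ s ∈ S, s ∈ tr N := by
  obtain ⟨x, hx, y, hy, hxy⟩ := t
  rw [eq_none hM h1 h2, Set.mem_singleton_iff] at hx
  subst hx
  cases y with
  | none => exact absurd hxy id
  | some y => exact ⟨y, hxy, hy⟩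

theorem core {V : Type} {G : SimpleGraph V} {S : Set V}
    (hS : ∀ x ∈ S, ∀ y ∈ S, x ≠ y → G.Adj x y) (A B : Fin 3 → Set (Option V))
    (cA : ∀ i, Con (capG G S) (A i)) (cB : ∀ i, Con (capG G S) (B i))
    (dA : ∀ i j, i ≠ j → Disjoint (A i) (A j)) (dB : ∀ i j, i ≠ j → Disjoint (B i) (B j))
    (dAB : ∀ i j, Disjoint (A i) (B j)) (t : ∀ i j, Tch (capG G S) (A i) (B j))
    (i : Fin 3) (h1 : none ∈ A i) (h2 : ¬ (tr (A i) ∩ S).Nonempty) :
    ∃ (a : Fin 3 → V) (P Q : Set V) (B' : Fin 3 → Set V), (∀ i, a i ∈ S) ∧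
      (∀ i j, i ≠ j → a i ≠ a j) ∧ Five G a P Q B' := by
  obtain ⟨j, k, hji, hki, hjk⟩ : ∃ j k : Fin 3, j ≠ i ∧ k ≠ i ∧ j ≠ k := by
    have hi : ∀ i : Fin 3, i + 1 ≠ i ∧ i + 2 ≠ i ∧ i + 1 ≠ i + 2 := by decide
    exact ⟨i + 1, i + 2, (hi i).1, (hi i).2.1, (hi i).2.2⟩
  choose a haS haB using fun l => hit (cA i) h1 h2 (t i l)
  have nA : ∀ j, j ≠ i → none ∉ A j := fun j hj hh =>
    Set.disjoint_left.1 (dA j i hj) hh h1
  have nB : ∀ l, none ∉ B l := fun l hh => Set.disjoint_left.1 (dAB i l) h1 hh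
  refine ⟨a, tr (A j), tr (A k), fun l => tr (B l), haS, ?_, ?_⟩
  · intro l m hlm e
    have h3 := haB m
    rw [← e] at h3
    exact Set.disjoint_left.1 (dB l m hlm) (haB l) h3
  · exact ⟨con_tr hS (cA j) (Or.inl (nA j hji)), con_tr hS (cA k) (Or.inl (nA k hki)),
      fun l => con_tr hS (cB l) (Or.inl (nB l)), dis_tr (dA j k hjk), fun l => dis_tr (dAB j l),
      fun l => dis_tr (dAB k l), fun l m hlm => dis_tr (dB l m hlm), haB,
      fun l => tch_tr hS (dAB j l) (t j l) (Or.inl (nA j hji)) (Or.inl (nB l)),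
      fun l => tch_tr hS (dAB k l) (t k l) (Or.inl (nA k hki)) (Or.inl (nB l))⟩

/-- a `K_{3,3}` minor which uses the new vertex -/
theorem five_of {V : Type} {G : SimpleGraph V} {S : Set V}
    (hS : ∀ x ∈ S, ∀ y ∈ S, x ≠ y → G.Adj x y) (h : IsMinor K33 (capG G S))
    (h33 : ¬ IsMinor K33 G) :
    ∃ (a : Fin 3 → V) (P Q : Set V) (B' : Fin 3 → Set V), (∀ i, a i ∈ S) ∧
      (∀ i j, i ≠ j → a i ≠ a j) ∧ Five G a P Q B' := by
  obtain ⟨μ, hc, hd, ht⟩ := h
  have cA : ∀ i, Con (capG G S) (μ (Sum.inl i)) := fun i => con_iff.1 (hc _)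
  have cB : ∀ i, Con (capG G S) (μ (Sum.inr i)) := fun i => con_iff.1 (hc _)
  have dA : ∀ i j : Fin 3, i ≠ j → Disjoint (μ (Sum.inl i)) (μ (Sum.inl j)) := fun i j hij =>
    hd _ _ (fun e => hij (Sum.inl.inj e))
  have dB : ∀ i j : Fin 3, i ≠ j → Disjoint (μ (Sum.inr i)) (μ (Sum.inr j)) := fun i j hij =>
    hd _ _ (fun e => hij (Sum.inr.inj e))
  have dAB : ∀ i j : Fin 3, Disjoint (μ (Sum.inl i)) (μ (Sum.inr j)) := fun i j =>
    hd _ _ (fun e => by cases e)
  have t : ∀ i j : Fin 3, Tch (capG G S) (μ (Sum.inl i)) (μ (Sum.inr j)) := fun i j =>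
    ht _ _ (by simp [K33])
  by_cases hg : ∀ w, none ∉ μ w ∨ (tr (μ w) ∩ S).Nonempty
  · exfalso
    exact h33 (k33_of (fun i => tr (μ (Sum.inl i))) (fun i => tr (μ (Sum.inr i)))
      (fun i => con_tr hS (cA i) (hg _)) (fun i => con_tr hS (cB i) (hg _))
      (fun i j hij => dis_tr (dA i j hij)) (fun i j hij => dis_tr (dB i j hij))
      (fun i j => dis_tr (dAB i j)) (fun i j => tch_tr hS (dAB i j) (t i j) (hg _) (hg _)))
  · push Not at hg
    obtain ⟨w, h1, h2⟩ := hg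
    rw [← Set.not_nonempty_iff_eq_empty] at h2
    rcases w with i | i
    · exact core hS _ _ cA cB dA dB dAB t i h1 h2
    · exact core hS _ _ cB cA dB dA (fun i j => (dAB j i).symm) (fun i j => (t j i).symm) i h1 h2

/-- **[W-FACE]** -/
theorem face {V : Type} [Finite V] {G : SimpleGraph V} {S : Set V}
    (hS : ∀ x ∈ S, ∀ y ∈ S, x ≠ y → G.Adj x y) (hcard : S.ncard ≤ 3)
    (hsep : S.ncard = 3 → ∀ C : Set V, C.Nonempty → Disjoint C S →
      (∀ u ∈ C, ∀ v, G.Adj u v → v ∈ C ∨ v ∈ S) → ∀ y, y ∈ C ∨ y ∈ S)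
    (h5 : S.ncard = 3 → ¬ IsMinor (⊤ : SimpleGraph (Fin 5)) G) (h33 : ¬ IsMinor K33 G) :
    ¬ IsMinor K33 (capG G S) := by
  intro hm
  obtain ⟨a, P, Q, B, haS, hinj, hF⟩ := five_of hS hm h33
  have hinj' : Function.Injective a := fun i j e => by
    by_contra hne
    exact hinj i j hne e
  have hr : (Set.range a).ncard = 3 := by
    rw [← Set.image_univ, Set.ncard_image_of_injective _ hinj', Set.ncard_univ]
    simp
  have hrS : Set.range a = S := by
    refine Set.eq_of_subset_of_ncard_le ?_ (by omega) (Set.toFinite _)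
    rintro _ ⟨i, rfl⟩
    exact haS i
  have h3 : S.ncard = 3 := by rw [← hrS]; exact hr
  have hmem : ∀ y, y ∈ S ↔ ∃ i, y = a i := by
    intro y
    rw [← hrS]
    constructor
    · rintro ⟨i, rfl⟩
      exact ⟨i, rfl⟩
    · rintro ⟨i, rfl⟩
      exact ⟨i, rfl⟩
  rcases Five.minor (fun i j hij => hS _ (haS i) _ (haS j) (hinj i j hij)) (fun C hC haC hcl y => by
    rw [← hmem]
    refine hsep h3 C hC (Set.disjoint_left.2 fun z hz hzS => ?_) (fun u hu v huv => ?_) y
    · obtain ⟨i, rfl⟩ := (hmem z).1 hzS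
      exact haC i hz
    · rw [hmem]
      exact hcl u hu v huv) _ P Q B hF (le_refl _) with h | h
  · exact h5 h3 h
  · exact h33 h

/-- the same with `G - S` connected -/
theorem face' {V : Type} [Finite V] {G : SimpleGraph V} {S : Set V}
    (hS : ∀ x ∈ S, ∀ y ∈ S, x ≠ y → G.Adj x y) (hcard : S.ncard ≤ 3)
    (hsep : S.ncard = 3 → (G.induce Sᶜ).Preconnected)
    (h5 : S.ncard = 3 → ¬ IsMinor (⊤ : SimpleGraph (Fin 5)) G) (h33 : ¬ IsMinor K33 G) :
    ¬ IsMinor K33 (capG G S) := by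
  refine face hS hcard (fun h3 C hC hCS hcl y => ?_) h5 h33
  by_contra hy
  push Not at hy
  obtain ⟨c, hc⟩ := hC
  have hcS : c ∈ Sᶜ := Set.disjoint_left.1 hCS hc
  obtain ⟨p⟩ := hsep h3 ⟨c, hcS⟩ ⟨y, hy.2⟩
  obtain ⟨d, -, hd1, hd2⟩ := p.exists_boundary_dart {x | x.1 ∈ C} hc hy.1
  rcases hcl d.fst.1 hd1 d.snd.1 d.adj with h | h
  · exact hd2 h
  · exact d.snd.2 h

/-- no `K_5` minor appears, for any clique `S` with at most three vertices -/
theorem cap_k5 {V : Type} [Finite V] {G : SimpleGraph V} {S : Set V}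
    (hS : ∀ x ∈ S, ∀ y ∈ S, x ≠ y → G.Adj x y) (hcard : S.ncard ≤ 3)
    (h5 : ¬ IsMinor (⊤ : SimpleGraph (Fin 5)) G) :
    ¬ IsMinor (⊤ : SimpleGraph (Fin 5)) (capG G S) := by
  rintro ⟨μ, hc, hd, ht⟩
  have hc' : ∀ i, Con (capG G S) (μ i) := fun i => con_iff.1 (hc i)
  have t : ∀ i j, i ≠ j → Tch (capG G S) (μ i) (μ j) := fun i j hij =>
    ht i j (by simpa using hij)
  by_cases hg : ∀ w, none ∉ μ w ∨ (tr (μ w) ∩ S).Nonempty
  · refine h5 ⟨fun i => tr (μ i), fun i => con_iff.2 (con_tr hS (hc' i) (hg i)),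
      fun i j hij => dis_tr (hd i j hij), fun i j hij => ?_⟩
    rw [SimpleGraph.top_adj] at hij
    exact tch_tr hS (hd i j hij) (t i j hij) (hg i) (hg j)
  · push Not at hg
    obtain ⟨w, h1, h2⟩ := hg
    rw [← Set.not_nonempty_iff_eq_empty] at h2
    choose a haS haB using fun l : {l : Fin 5 // l ≠ w} =>
      hit (hc' w) h1 h2 (t w l.1 l.2.symm)
    have hinj : Function.Injective a := by
      intro l m e
      by_contra hne
      have h3 := haB m
      rw [← e] at h3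
      exact Set.disjoint_left.1 (hd l.1 m.1 (fun e => hne (Subtype.ext e))) (haB l) h3
    have hr : (Set.range a).ncard = 4 := by
      rw [← Set.image_univ, Set.ncard_image_of_injective _ hinj, Set.ncard_univ]
      simp
    have hle : (Set.range a).ncard ≤ S.ncard := by
      refine Set.ncard_le_ncard ?_ (Set.toFinite _)
      rintro _ ⟨i, rfl⟩
      exact haS i
    omega

end Vale.Agent.P235.H218K5
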